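import Mathlib

namespace Vale.Agent.Lib.P123.H41

open ContinuousLinearMap Polynomial

variable {H : Type*} [NormedAddCommGroup H] [InnerProductSpace ℂ H] [CompleteSpace H]

theorem h41_iso_inner {V : H →L[ℂ] H} (hV : adjoint V * V = 1) (x y : H) :
    inner ℂ (V x) (V y) = inner ℂ x y :=
  (inner_map_map_iff_adjoint_comp_self V).mpr hV x y

theorem h41_iso_norm {V : H →L[ℂ] H} (hV : adjoint V * V = 1) (x : H) : ‖V x‖ = ‖x‖ :=
  (norm_map_iff_adjoint_comp_self V).mpr hV x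

theorem h41_norm_le {V : H →L[ℂ] H} (hV : adjoint V * V = 1) : ‖V‖ ≤ 1 :=
  opNorm_le_bound V zero_le_one fun x => by rw [h41_iso_norm hV x, one_mul]

theorem h41_norm_adj_le {V : H →L[ℂ] H} (hV : adjoint V * V = 1) : ‖adjoint V‖ ≤ 1 := by
  rw [LinearIsometryEquiv.norm_map]; exact h41_norm_le hV

/-- The ball of radius one is invariant under `X ↦ P + V X V†`. -/
theorem h41_ball {V : H →L[ℂ] H} (hV : adjoint V * V = 1) (X : H →L[ℂ] H) (hX : ‖X‖ ≤ 1) :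
    ‖1 - V * adjoint V + V * X * adjoint V‖ ≤ 1 := by
  refine opNorm_le_bound _ zero_le_one fun x => ?_
  rw [one_mul]
  have hVa : adjoint V (x - V (adjoint V x)) = 0 := by
    have h : adjoint V (V (adjoint V x)) = adjoint V x := DFunLike.congr_fun hV (adjoint V x)
    rw [map_sub, h, sub_self]
  have horth : ∀ y : H, inner ℂ (x - V (adjoint V x)) (V y) = 0 := fun y => by
    rw [← adjoint_inner_left, hVa, inner_zero_left]
  have h1 : ‖(x - V (adjoint V x)) + V (X (adjoint V x))‖ ^ 2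
      = ‖x - V (adjoint V x)‖ ^ 2 + ‖X (adjoint V x)‖ ^ 2 := by
    rw [@norm_add_sq ℂ, horth, h41_iso_norm hV]; simp
  have h2 : ‖x‖ ^ 2 = ‖x - V (adjoint V x)‖ ^ 2 + ‖adjoint V x‖ ^ 2 := by
    have : x = (x - V (adjoint V x)) + V (adjoint V x) := by abel
    conv_lhs => rw [this]
    rw [@norm_add_sq ℂ, horth, h41_iso_norm hV]; simp
  have hb : ‖X (adjoint V x)‖ ≤ ‖adjoint V x‖ := by
    calc ‖X (adjoint V x)‖ ≤ ‖X‖ * ‖adjoint V x‖ := X.le_opNorm _
      _ ≤ 1 * ‖adjoint V x‖ := by gcongr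
      _ = ‖adjoint V x‖ := one_mul _
  have key : ‖(x - V (adjoint V x)) + V (X (adjoint V x))‖ ^ 2 ≤ ‖x‖ ^ 2 := by
    rw [h1, h2]; gcongr
  have hx : (1 - V * adjoint V + V * X * adjoint V) x
      = (x - V (adjoint V x)) + V (X (adjoint V x)) := by
    simp
  rw [hx]
  exact (sq_le_sq₀ (norm_nonneg _) (norm_nonneg _)).mp key

theorem h41_exists_D {V : H →L[ℂ] H} (hV : adjoint V * V = 1) {γ : ℂ} (hγ : ‖γ‖ < 1) :
    ∃ D : H →L[ℂ] H, ‖D‖ ≤ ‖γ‖ ∧ D = γ • (1 - V * adjoint V + V * D * adjoint V) := by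
  let Φ : (H →L[ℂ] H) → (H →L[ℂ] H) := fun X => γ • (1 - V * adjoint V + V * X * adjoint V)
  have hVn : ‖V‖ ≤ 1 := h41_norm_le hV
  have hVan : ‖adjoint V‖ ≤ 1 := h41_norm_adj_le hV
  have hK : ‖γ‖₊ < 1 := by exact_mod_cast hγ
  have hΦ : ContractingWith ‖γ‖₊ Φ := by
    refine ⟨hK, LipschitzWith.of_dist_le_mul fun X Y => ?_⟩
    simp only [Φ, dist_eq_norm, coe_nnnorm]
    have h3 : γ • (1 - V * adjoint V + V * X * adjoint V)
        - γ • (1 - V * adjoint V + V * Y * adjoint V) = γ • (V * (X - Y) * adjoint V) := by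
      rw [← smul_sub]; congr 1; noncomm_ring
    rw [h3, norm_smul]
    refine mul_le_mul_of_nonneg_left ?_ (norm_nonneg _)
    calc ‖V * (X - Y) * adjoint V‖ ≤ ‖V * (X - Y)‖ * ‖adjoint V‖ := norm_mul_le _ _
      _ ≤ (‖V‖ * ‖X - Y‖) * ‖adjoint V‖ := by gcongr; exact norm_mul_le _ _
      _ ≤ (1 * ‖X - Y‖) * 1 := by gcongr
      _ = ‖X - Y‖ := by ring
  have hball : ∀ X : H →L[ℂ] H, ‖X‖ ≤ ‖γ‖ → ‖Φ X‖ ≤ ‖γ‖ := by
    intro X hX
    simp only [Φ, norm_smul]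
    calc ‖γ‖ * ‖1 - V * adjoint V + V * X * adjoint V‖ ≤ ‖γ‖ * 1 := by
          gcongr; exact h41_ball hV X (hX.trans hγ.le)
      _ = ‖γ‖ := mul_one _
  have hiter : ∀ n : ℕ, ‖Φ^[n] 0‖ ≤ ‖γ‖ := by
    intro n
    induction n with
    | zero => simp
    | succ n ih => rw [Function.iterate_succ_apply']; exact hball _ ih
  refine ⟨ContractingWith.fixedPoint Φ hΦ, ?_, (hΦ.fixedPoint_isFixedPt).symm⟩
  exact le_of_tendsto ((hΦ.tendsto_iterate_fixedPoint 0).norm) (Filter.Eventually.of_forall hiter)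

/-- The unitary extension of the isometry `V` on `H ⊕ H`, as a two by two operator matrix. -/
noncomputable def h41_U (V : H →L[ℂ] H) : CStarMatrix (Fin 2) (Fin 2) (H →L[ℂ] H) :=
  CStarMatrix.ofMatrix (Matrix.of ![![V, 1 - V * adjoint V], ![0, adjoint V]])

theorem h41_U00 (V : H →L[ℂ] H) : h41_U V 0 0 = V := rfl
theorem h41_U01 (V : H →L[ℂ] H) : h41_U V 0 1 = 1 - V * adjoint V := rfl
theorem h41_U10 (V : H →L[ℂ] H) : h41_U V 1 0 = 0 := rfl
theorem h41_U11 (V : H →L[ℂ] H) : h41_U V 1 1 = adjoint V := rfl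

theorem h41_VP {V : H →L[ℂ] H} (hV : adjoint V * V = 1) :
    adjoint V * (1 - V * adjoint V) = 0 := by
  rw [mul_sub, mul_one, ← mul_assoc, hV, one_mul, sub_self]

theorem h41_PV {V : H →L[ℂ] H} (hV : adjoint V * V = 1) :
    (1 - V * adjoint V) * V = 0 := by
  rw [sub_mul, one_mul, mul_assoc, hV, mul_one, sub_self]

theorem h41_PP {V : H →L[ℂ] H} (hV : adjoint V * V = 1) :
    (1 - V * adjoint V) * (1 - V * adjoint V) = 1 - V * adjoint V := by
  rw [mul_sub, mul_one, ← mul_assoc, h41_PV hV, zero_mul, sub_zero]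

theorem h41_starP (V : H →L[ℂ] H) : star (1 - V * adjoint V) = 1 - V * adjoint V := by
  rw [star_sub, star_one, star_mul, star_eq_adjoint, star_eq_adjoint, adjoint_adjoint]

theorem h41_U_unitary {V : H →L[ℂ] H} (hV : adjoint V * V = 1) :
    h41_U V ∈ unitary (CStarMatrix (Fin 2) (Fin 2) (H →L[ℂ] H)) := by
  have hsV : star V = adjoint V := star_eq_adjoint V
  have hsVa : star (adjoint V) = V := by rw [star_eq_adjoint, adjoint_adjoint]
  rw [Unitary.mem_iff]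
  constructor
  · have key : ∀ i j, (star (h41_U V) * h41_U V) i j
        = (1 : CStarMatrix (Fin 2) (Fin 2) (H →L[ℂ] H)) i j := by
      simp only [Fin.forall_fin_two]
      refine ⟨⟨?_, ?_⟩, ⟨?_, ?_⟩⟩
      · rw [CStarMatrix.mul_apply, Fin.sum_univ_two, CStarMatrix.star_apply, CStarMatrix.star_apply,
          h41_U00, h41_U10, hsV, hV, star_zero, zero_mul, add_zero, CStarMatrix.one_apply_eq]
      · rw [CStarMatrix.mul_apply, Fin.sum_univ_two, CStarMatrix.star_apply, CStarMatrix.star_apply,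
          h41_U00, h41_U10, h41_U01, h41_U11, hsV, h41_VP hV, star_zero, zero_mul, add_zero,
          CStarMatrix.one_apply_ne (by decide)]
      · rw [CStarMatrix.mul_apply, Fin.sum_univ_two, CStarMatrix.star_apply, CStarMatrix.star_apply,
          h41_U00, h41_U10, h41_U01, h41_U11, h41_starP, h41_PV hV, hsVa, mul_zero, add_zero,
          CStarMatrix.one_apply_ne (by decide)]
      · rw [CStarMatrix.mul_apply, Fin.sum_univ_two, CStarMatrix.star_apply, CStarMatrix.star_apply,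
          h41_U01, h41_U11, h41_starP, h41_PP hV, hsVa, sub_add_cancel, CStarMatrix.one_apply_eq]
    exact CStarMatrix.ext key
  · have key : ∀ i j, (h41_U V * star (h41_U V)) i j
        = (1 : CStarMatrix (Fin 2) (Fin 2) (H →L[ℂ] H)) i j := by
      simp only [Fin.forall_fin_two]
      refine ⟨⟨?_, ?_⟩, ⟨?_, ?_⟩⟩
      · rw [CStarMatrix.mul_apply, Fin.sum_univ_two, CStarMatrix.star_apply, CStarMatrix.star_apply,
          h41_U00, h41_U01, hsV, h41_starP, h41_PP hV, add_sub_cancel, CStarMatrix.one_apply_eq]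
      · rw [CStarMatrix.mul_apply, Fin.sum_univ_two, CStarMatrix.star_apply, CStarMatrix.star_apply,
          h41_U00, h41_U01, h41_U10, h41_U11, hsVa, h41_PV hV, star_zero, mul_zero, add_zero,
          CStarMatrix.one_apply_ne (by decide)]
      · rw [CStarMatrix.mul_apply, Fin.sum_univ_two, CStarMatrix.star_apply, CStarMatrix.star_apply,
          h41_U00, h41_U01, h41_U10, h41_U11, h41_starP, h41_VP hV, zero_mul, add_zero,
          CStarMatrix.one_apply_ne (by decide)]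
      · rw [CStarMatrix.mul_apply, Fin.sum_univ_two, CStarMatrix.star_apply, CStarMatrix.star_apply,
          h41_U10, h41_U11, hsVa, hV, star_zero, mul_zero, zero_add, CStarMatrix.one_apply_eq]
    exact CStarMatrix.ext key

/-- The normal operator `N = U† + γ U` on `H ⊕ H`. -/
noncomputable def h41_N (V : H →L[ℂ] H) (γ : ℂ) : CStarMatrix (Fin 2) (Fin 2) (H →L[ℂ] H) :=
  star (h41_U V) + γ • h41_U V

theorem h41_N00 (V : H →L[ℂ] H) (γ : ℂ) : h41_N V γ 0 0 = adjoint V + γ • V := by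
  rw [h41_N, CStarMatrix.add_apply, CStarMatrix.star_apply, CStarMatrix.smul_apply, h41_U00,
    star_eq_adjoint]

theorem h41_N01 (V : H →L[ℂ] H) (γ : ℂ) : h41_N V γ 0 1 = γ • (1 - V * adjoint V) := by
  rw [h41_N, CStarMatrix.add_apply, CStarMatrix.star_apply, CStarMatrix.smul_apply, h41_U10,
    h41_U01, star_zero, zero_add]

theorem h41_N10 (V : H →L[ℂ] H) (γ : ℂ) : h41_N V γ 1 0 = 1 - V * adjoint V := by
  rw [h41_N, CStarMatrix.add_apply, CStarMatrix.star_apply, CStarMatrix.smul_apply, h41_U10,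
    h41_U01, h41_starP, smul_zero, add_zero]

theorem h41_N11 (V : H →L[ℂ] H) (γ : ℂ) : h41_N V γ 1 1 = V + γ • adjoint V := by
  rw [h41_N, CStarMatrix.add_apply, CStarMatrix.star_apply, CStarMatrix.smul_apply, h41_U11,
    star_eq_adjoint, adjoint_adjoint]

theorem h41_norm_aeval_N {V : H →L[ℂ] H} (hV : adjoint V * V = 1) (γ : ℂ) (p : ℂ[X]) {M : ℝ}
    (hM0 : 0 ≤ M) (hM : ∀ z : ℂ, ‖z‖ = 1 → ‖p.eval (star z + γ * z)‖ ≤ M) :
    ‖aeval (h41_N V γ) p‖ ≤ M := by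
  have hU := h41_U_unitary hV
  have hn : IsStarNormal (h41_U V) :=
    ⟨(Unitary.star_mul_self_of_mem hU).trans (Unitary.mul_star_self_of_mem hU).symm⟩
  have h1 : h41_N V γ = cfc (fun z : ℂ => star z + γ * z) (h41_U V) := by
    rw [h41_N, cfc_add (h41_U V) (fun z : ℂ => star z) (fun z : ℂ => γ * z),
      cfc_star_id (h41_U V), cfc_const_mul_id γ (h41_U V)]
  rw [h1, ← cfc_map_polynomial p (fun z : ℂ => star z + γ * z) (h41_U V)]
  refine norm_cfc_le hM0 fun z hz => hM z ?_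
  have := spectrum.subset_circle_of_unitary hU hz
  simpa using this

theorem h41_VD {V D : H →L[ℂ] H} (hV : adjoint V * V = 1) {γ : ℂ}
    (hD : D = γ • (1 - V * adjoint V + V * D * adjoint V)) :
    adjoint V * D = γ • (D * adjoint V) := by
  calc adjoint V * D = adjoint V * (γ • (1 - V * adjoint V + V * D * adjoint V)) := by rw [← hD]
    _ = γ • (D * adjoint V) := by
      rw [mul_smul_comm, mul_add, h41_VP hV, zero_add, ← mul_assoc, ← mul_assoc, hV, one_mul]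

theorem h41_base0 {V : H →L[ℂ] H} (hV : adjoint V * V = 1) (γ : ℂ) (D : H →L[ℂ] H) :
    h41_N V γ 0 0 - D * adjoint V * h41_N V γ 1 0 = (adjoint V + γ • V) * 1 := by
  rw [h41_N00, h41_N10, mul_assoc, h41_VP hV, mul_zero, sub_zero, mul_one]

theorem h41_base1 {V D : H →L[ℂ] H} (hV : adjoint V * V = 1) {γ : ℂ}
    (hD : D = γ • (1 - V * adjoint V + V * D * adjoint V)) :
    h41_N V γ 0 1 - D * adjoint V * h41_N V γ 1 1
      = (adjoint V + γ • V) * (-(D * adjoint V)) := by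
  rw [h41_N01, h41_N11]
  have e1 : γ • (1 - V * adjoint V) - D = -(γ • (V * D * adjoint V)) := by
    calc γ • (1 - V * adjoint V) - D
        = γ • (1 - V * adjoint V) - γ • (1 - V * adjoint V + V * D * adjoint V) := by rw [← hD]
      _ = -(γ • (V * D * adjoint V)) := by rw [smul_add]; abel
  have e2 : D * adjoint V * (V + γ • adjoint V) = D + γ • (D * adjoint V * adjoint V) := by
    rw [mul_add, mul_smul_comm, mul_assoc D (adjoint V) V, hV, mul_one]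
  have e3 : (adjoint V + γ • V) * (-(D * adjoint V))
      = -(γ • (D * adjoint V * adjoint V)) - γ • (V * D * adjoint V) := by
    rw [mul_neg, add_mul, ← mul_assoc (adjoint V) D (adjoint V), h41_VD hV hD, smul_mul_assoc,
      smul_mul_assoc, ← mul_assoc V D (adjoint V), neg_add, sub_eq_add_neg]
  rw [e2, e3, ← sub_sub, e1]
  abel

theorem h41_alg {R : Type*} [Ring R] (a b c d n0 n1 E Ak A r : R) (h1 : a - E * c = Ak)
    (h2 : b - E * d = Ak * (-E)) (h3 : n0 - E * n1 = A * r) :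
    (a * n0 + b * n1) - E * (c * n0 + d * n1) = Ak * A * r := by
  have e : (a * n0 + b * n1) - E * (c * n0 + d * n1) = (a - E * c) * n0 + (b - E * d) * n1 := by
    noncomm_ring
  rw [e, h1, h2, mul_assoc Ak A r, ← h3]
  noncomm_ring

theorem h41_pow {V D : H →L[ℂ] H} (hV : adjoint V * V = 1) {γ : ℂ}
    (hD : D = γ • (1 - V * adjoint V + V * D * adjoint V)) (k : ℕ) :
    (h41_N V γ ^ k) 0 0 - D * adjoint V * (h41_N V γ ^ k) 1 0 = (adjoint V + γ • V) ^ k ∧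
    (h41_N V γ ^ k) 0 1 - D * adjoint V * (h41_N V γ ^ k) 1 1
      = (adjoint V + γ • V) ^ k * (-(D * adjoint V)) := by
  induction k with
  | zero =>
    constructor
    · rw [pow_zero, pow_zero, CStarMatrix.one_apply_eq, CStarMatrix.one_apply_ne (by decide),
        mul_zero, sub_zero]
    · rw [pow_zero, pow_zero, CStarMatrix.one_apply_eq, CStarMatrix.one_apply_ne (by decide),
        mul_one, zero_sub, one_mul]
  | succ k ih =>
    obtain ⟨ih1, ih2⟩ := ih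
    have e00 : (h41_N V γ ^ (k + 1)) 0 0 = (h41_N V γ ^ k) 0 0 * h41_N V γ 0 0
        + (h41_N V γ ^ k) 0 1 * h41_N V γ 1 0 := by
      rw [pow_succ, CStarMatrix.mul_apply, Fin.sum_univ_two]
    have e10 : (h41_N V γ ^ (k + 1)) 1 0 = (h41_N V γ ^ k) 1 0 * h41_N V γ 0 0
        + (h41_N V γ ^ k) 1 1 * h41_N V γ 1 0 := by
      rw [pow_succ, CStarMatrix.mul_apply, Fin.sum_univ_two]
    have e01 : (h41_N V γ ^ (k + 1)) 0 1 = (h41_N V γ ^ k) 0 0 * h41_N V γ 0 1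
        + (h41_N V γ ^ k) 0 1 * h41_N V γ 1 1 := by
      rw [pow_succ, CStarMatrix.mul_apply, Fin.sum_univ_two]
    have e11 : (h41_N V γ ^ (k + 1)) 1 1 = (h41_N V γ ^ k) 1 0 * h41_N V γ 0 1
        + (h41_N V γ ^ k) 1 1 * h41_N V γ 1 1 := by
      rw [pow_succ, CStarMatrix.mul_apply, Fin.sum_univ_two]
    constructor
    · rw [e00, e10, h41_alg _ _ _ _ _ _ _ _ _ _ ih1 ih2 (h41_base0 hV γ D), mul_one, pow_succ]
    · rw [e01, e11, h41_alg _ _ _ _ _ _ _ _ _ _ ih1 ih2 (h41_base1 hV hD), pow_succ]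

theorem h41_aeval {V D : H →L[ℂ] H} (hV : adjoint V * V = 1) {γ : ℂ}
    (hD : D = γ • (1 - V * adjoint V + V * D * adjoint V)) (p : ℂ[X]) :
    (aeval (h41_N V γ) p) 0 0 - D * adjoint V * (aeval (h41_N V γ) p) 1 0
      = aeval (adjoint V + γ • V) p := by
  induction p using Polynomial.induction_on' with
  | add p q hp hq =>
    rw [map_add, map_add, CStarMatrix.add_apply, CStarMatrix.add_apply, mul_add, ← hp, ← hq]
    abel
  | monomial n c =>
    rw [aeval_monomial, aeval_monomial, ← Algebra.smul_def, ← Algebra.smul_def,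
      CStarMatrix.smul_apply, CStarMatrix.smul_apply, mul_smul_comm, ← smul_sub,
      (h41_pow hV hD n).1]

/-- Column bound for two by two operator matrices. -/
theorem h41_col (X : CStarMatrix (Fin 2) (Fin 2) (H →L[ℂ] H)) (x : H) :
    ‖X 0 0 x‖ ^ 2 + ‖X 1 0 x‖ ^ 2 ≤ (‖X‖ * ‖x‖) ^ 2 := by
  have hY : (star X * X) 0 0 = star (X 0 0) * X 0 0 + star (X 1 0) * X 1 0 := by
    rw [CStarMatrix.mul_apply, Fin.sum_univ_two, CStarMatrix.star_apply, CStarMatrix.star_apply]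
  have hYn : ‖(star X * X) 0 0‖ ≤ ‖X‖ * ‖X‖ := by
    calc ‖(star X * X) 0 0‖ ≤ ‖star X * X‖ := CStarMatrix.norm_entry_le_norm
      _ = ‖X‖ * ‖X‖ := CStarRing.norm_star_mul_self
  have h1 : RCLike.re (inner ℂ x (((star X * X) 0 0) x))
      = ‖X 0 0 x‖ ^ 2 + ‖X 1 0 x‖ ^ 2 := by
    rw [hY, star_eq_adjoint, star_eq_adjoint]
    have h0 : (adjoint (X 0 0) * X 0 0 + adjoint (X 1 0) * X 1 0) x
        = adjoint (X 0 0) (X 0 0 x) + adjoint (X 1 0) (X 1 0 x) := rfl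
    rw [h0, inner_add_right, map_add, adjoint_inner_right, adjoint_inner_right,
      inner_self_eq_norm_sq, inner_self_eq_norm_sq]
  calc ‖X 0 0 x‖ ^ 2 + ‖X 1 0 x‖ ^ 2
      = RCLike.re (inner ℂ x (((star X * X) 0 0) x)) := h1.symm
    _ ≤ ‖inner ℂ x (((star X * X) 0 0) x)‖ := RCLike.re_le_norm _
    _ ≤ ‖x‖ * ‖((star X * X) 0 0) x‖ := norm_inner_le_norm _ _
    _ ≤ ‖x‖ * (‖(star X * X) 0 0‖ * ‖x‖) := by
        gcongr; exact ContinuousLinearMap.le_opNorm _ _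
    _ ≤ ‖x‖ * (‖X‖ * ‖X‖ * ‖x‖) := by gcongr
    _ = (‖X‖ * ‖x‖) ^ 2 := by ring

theorem h41_main_of_curve {V : H →L[ℂ] H} (hV : adjoint V * V = 1) {γ : ℂ} (hγ : ‖γ‖ < 1)
    (p : ℂ[X]) {M : ℝ} (hM0 : 0 ≤ M)
    (hM : ∀ z : ℂ, ‖z‖ = 1 → ‖p.eval (star z + γ * z)‖ ≤ M) :
    ‖aeval (adjoint V + γ • V) p‖ ≤ Real.sqrt (1 + ‖γ‖ ^ 2) * M := by
  obtain ⟨D, hDn, hD⟩ := h41_exists_D hV hγ
  have hN := h41_norm_aeval_N hV γ p hM0 hM
  rw [← h41_aeval hV hD p]
  have hE : ‖D * adjoint V‖ ≤ ‖γ‖ := by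
    calc ‖D * adjoint V‖ ≤ ‖D‖ * ‖adjoint V‖ := norm_mul_le _ _
      _ ≤ ‖γ‖ * 1 := by gcongr; exact h41_norm_adj_le hV
      _ = ‖γ‖ := mul_one _
  refine opNorm_le_bound _ (by positivity) fun x => ?_
  obtain ⟨X, hX⟩ : ∃ X : CStarMatrix (Fin 2) (Fin 2) (H →L[ℂ] H), X = aeval (h41_N V γ) p :=
    ⟨_, rfl⟩
  rw [← hX] at hN ⊢
  have hcol := h41_col X x
  have hx : (X 0 0 - D * adjoint V * X 1 0) x = X 0 0 x - (D * adjoint V) (X 1 0 x) := rfl
  rw [hx]
  have h1 : ‖X 0 0 x - (D * adjoint V) (X 1 0 x)‖ ≤ ‖X 0 0 x‖ + ‖γ‖ * ‖X 1 0 x‖ := by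
    calc ‖X 0 0 x - (D * adjoint V) (X 1 0 x)‖
        ≤ ‖X 0 0 x‖ + ‖(D * adjoint V) (X 1 0 x)‖ := norm_sub_le _ _
      _ ≤ ‖X 0 0 x‖ + ‖D * adjoint V‖ * ‖X 1 0 x‖ := by
          gcongr; exact ContinuousLinearMap.le_opNorm _ _
      _ ≤ ‖X 0 0 x‖ + ‖γ‖ * ‖X 1 0 x‖ := by gcongr
  have h3 : (‖X 0 0 x‖ + ‖γ‖ * ‖X 1 0 x‖) ^ 2 ≤ (1 + ‖γ‖ ^ 2) * (‖X‖ * ‖x‖) ^ 2 := by
    have h4 : (‖X 0 0 x‖ + ‖γ‖ * ‖X 1 0 x‖) ^ 2
        ≤ (1 + ‖γ‖ ^ 2) * (‖X 0 0 x‖ ^ 2 + ‖X 1 0 x‖ ^ 2) := by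
      nlinarith [sq_nonneg (‖γ‖ * ‖X 0 0 x‖ - ‖X 1 0 x‖)]
    exact h4.trans (mul_le_mul_of_nonneg_left hcol (by positivity))
  have h5 : ‖X 0 0 x‖ + ‖γ‖ * ‖X 1 0 x‖ ≤ Real.sqrt (1 + ‖γ‖ ^ 2) * (‖X‖ * ‖x‖) := by
    have h6 := (le_abs_self _).trans (Real.abs_le_sqrt h3)
    rw [Real.sqrt_mul (by positivity), Real.sqrt_sq (by positivity)] at h6
    exact h6
  calc ‖X 0 0 x - (D * adjoint V) (X 1 0 x)‖ ≤ ‖X 0 0 x‖ + ‖γ‖ * ‖X 1 0 x‖ := h1
    _ ≤ Real.sqrt (1 + ‖γ‖ ^ 2) * (‖X‖ * ‖x‖) := h5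
    _ ≤ Real.sqrt (1 + ‖γ‖ ^ 2) * (M * ‖x‖) := by gcongr
    _ = Real.sqrt (1 + ‖γ‖ ^ 2) * M * ‖x‖ := by ring

omit [CompleteSpace H] in
theorem h41_pow_succ_apply (V : H →L[ℂ] H) (k : ℕ) (e : H) :
    (V ^ (k + 1)) e = V ((V ^ k) e) := by
  rw [pow_succ']; rfl

theorem h41_orth {V : H →L[ℂ] H} (hV : adjoint V * V = 1) {e : H} (he : ‖e‖ = 1)
    (hVe : adjoint V e = 0) (j k : ℕ) :
    inner ℂ ((V ^ j) e) ((V ^ k) e) = if j = k then 1 else 0 := by
  induction j generalizing k with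
  | zero =>
    cases k with
    | zero =>
      have h0 : (V ^ 0) e = e := by rw [pow_zero]; rfl
      rw [h0, inner_self_eq_norm_sq_to_K, he]; simp
    | succ k =>
      have h0 : (V ^ 0) e = e := by rw [pow_zero]; rfl
      rw [h0, h41_pow_succ_apply, ← adjoint_inner_left, hVe, inner_zero_left]; simp
  | succ j ih =>
    cases k with
    | zero =>
      have h0 : (V ^ 0) e = e := by rw [pow_zero]; rfl
      rw [h0, h41_pow_succ_apply, ← adjoint_inner_right, hVe, inner_zero_right]; simp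
    | succ k =>
      rw [h41_pow_succ_apply, h41_pow_succ_apply, h41_iso_inner hV, ih]; simp

theorem h41_packet {V : H →L[ℂ] H} (hV : adjoint V * V = 1) {e : H} (he : ‖e‖ = 1)
    (hVe : adjoint V e = 0) (γ ζ : ℂ) (hζ : ‖ζ‖ = 1) (n : ℕ) :
    ∃ x : H, ‖x‖ = 1 ∧
      inner ℂ x ((adjoint V + γ • V) x) = ((n : ℂ) / (n + 1)) * (ζ + γ * star ζ) := by
  have hzz : ∀ k : ℕ, ζ ^ k * star (ζ ^ k) = 1 := by
    intro k
    have h1 : ζ * star ζ = 1 := by
      rw [Complex.star_def, Complex.mul_conj, Complex.normSq_eq_norm_sq, hζ]; simp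
    rw [star_pow, ← mul_pow, h1, one_pow]
  obtain ⟨y, hy⟩ : ∃ y : H, y = ∑ k ∈ Finset.range (n + 1), ζ ^ k • (V ^ k) e := ⟨_, rfl⟩
  have hyf : ∀ m : ℕ, inner ℂ y ((V ^ m) e) = if m ≤ n then star (ζ ^ m) else 0 := by
    intro m
    rw [hy, sum_inner]
    simp only [inner_smul_left, h41_orth hV he hVe, mul_ite, mul_one, mul_zero]
    rw [Finset.sum_ite_eq' (Finset.range (n + 1)) m]
    simp [Finset.mem_range]
  have hyy : inner ℂ y y = (n : ℂ) + 1 := by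
    have h : inner ℂ y y = inner ℂ y (∑ k ∈ Finset.range (n + 1), ζ ^ k • (V ^ k) e) := by
      rw [← hy]
    rw [h, inner_sum]
    simp only [inner_smul_right, hyf]
    rw [Finset.sum_congr rfl (fun k hk => by
      rw [if_pos (Nat.lt_succ_iff.mp (Finset.mem_range.mp hk)), hzz k])]
    simp
  have hVy : V y = ∑ k ∈ Finset.range (n + 1), ζ ^ k • (V ^ (k + 1)) e := by
    rw [hy, map_sum]
    refine Finset.sum_congr rfl fun k _ => ?_
    rw [map_smul, h41_pow_succ_apply]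
  have hyVy : inner ℂ y (V y) = (n : ℂ) * star ζ := by
    rw [hVy, inner_sum]
    simp only [inner_smul_right, hyf]
    rw [Finset.sum_range_succ, if_neg (by omega), mul_zero, add_zero]
    rw [Finset.sum_congr rfl (fun k hk => by
      rw [if_pos (by have := Finset.mem_range.mp hk; omega), pow_succ, star_mul', ← mul_assoc,
        hzz k, one_mul])]
    simp
  have hyVay : inner ℂ y (adjoint V y) = (n : ℂ) * ζ := by
    rw [adjoint_inner_right, ← inner_conj_symm, hyVy]; simp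
  have hA : inner ℂ y ((adjoint V + γ • V) y) = (n : ℂ) * (ζ + γ * star ζ) := by
    rw [add_apply, smul_apply, inner_add_right, inner_smul_right, hyVay, hyVy]
    ring
  have hny : ‖y‖ ^ 2 = (n : ℝ) + 1 := by
    rw [← @inner_self_eq_norm_sq ℂ, hyy]
    simp
  have hy0 : ‖y‖ ≠ 0 := by
    intro h
    rw [h] at hny
    have : (0 : ℝ) < (n : ℝ) + 1 := by positivity
    nlinarith
  refine ⟨((‖y‖⁻¹ : ℝ) : ℂ) • y, ?_, ?_⟩
  · rw [norm_smul, Complex.norm_real, norm_inv, norm_norm, inv_mul_cancel₀ hy0]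
  · rw [map_smul, inner_smul_left, inner_smul_right, hA, Complex.conj_ofReal]
    have h2 : ((‖y‖⁻¹ : ℝ) : ℂ) * ((‖y‖⁻¹ : ℝ) : ℂ) = 1 / ((n : ℂ) + 1) := by
      rw [← Complex.ofReal_mul, ← mul_inv, ← sq, hny]
      push_cast
      ring
    rw [← mul_assoc, h2]
    ring

theorem h41_curve {V : H →L[ℂ] H} (hV : adjoint V * V = 1) {e : H} (he : ‖e‖ = 1)
    (hVe : adjoint V e = 0) (γ : ℂ) (p : ℂ[X]) {M : ℝ}
    (hM : ∀ x : H, ‖x‖ = 1 → ‖p.eval (inner ℂ x ((adjoint V + γ • V) x))‖ ≤ M) :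
    ∀ z : ℂ, ‖z‖ = 1 → ‖p.eval (star z + γ * z)‖ ≤ M := by
  intro z hz
  have hζ : ‖star z‖ = 1 := by rw [norm_star, hz]
  have hseq : ∀ n : ℕ, ‖p.eval (((n : ℂ) / (n + 1)) * (star z + γ * z))‖ ≤ M := by
    intro n
    obtain ⟨x, hx1, hx2⟩ := h41_packet hV he hVe γ (star z) hζ n
    have h := hM x hx1
    rw [hx2, star_star] at h
    exact h
  have h1 : Filter.Tendsto (fun n : ℕ => ((n : ℂ) / (n + 1))) Filter.atTop (nhds 1) :=
    tendsto_natCast_div_add_atTop (1 : ℂ)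
  have h2 : Filter.Tendsto (fun n : ℕ => ((n : ℂ) / (n + 1)) * (star z + γ * z)) Filter.atTop
      (nhds (star z + γ * z)) := by
    simpa using h1.mul_const (star z + γ * z)
  have hlim : Filter.Tendsto (fun n : ℕ => ‖p.eval (((n : ℂ) / (n + 1)) * (star z + γ * z))‖)
      Filter.atTop (nhds ‖p.eval (star z + γ * z)‖) :=
    ((p.continuous.tendsto (star z + γ * z)).comp h2).norm
  exact le_of_tendsto' hlim hseq

/-- Crouzeix-type inequality with constant `√(1 + ‖γ‖ ^ 2)` for `A = V† + γ V`, `V` a non-unitary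
isometry, `‖γ‖ < 1`. -/
theorem h41_main {V : H →L[ℂ] H} (hV : adjoint V * V = 1) (hV' : V * adjoint V ≠ 1) {γ : ℂ}
    (hγ : ‖γ‖ < 1) (p : ℂ[X]) {M : ℝ}
    (hM : ∀ x : H, ‖x‖ = 1 → ‖p.eval (inner ℂ x ((adjoint V + γ • V) x))‖ ≤ M) :
    ‖aeval (adjoint V + γ • V) p‖ ≤ Real.sqrt (1 + ‖γ‖ ^ 2) * M := by
  have hex : ∃ x : H, V (adjoint V x) ≠ x := by
    by_contra h
    simp only [not_exists, not_not] at h
    exact hV' (ContinuousLinearMap.ext fun x => h x)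
  obtain ⟨x0, hx0⟩ := hex
  have he0 : x0 - V (adjoint V x0) ≠ 0 := sub_ne_zero.mpr (Ne.symm hx0)
  have hVe0 : adjoint V (x0 - V (adjoint V x0)) = 0 := by
    have h : adjoint V (V (adjoint V x0)) = adjoint V x0 := DFunLike.congr_fun hV (adjoint V x0)
    rw [map_sub, h, sub_self]
  obtain ⟨e, he, hVe⟩ : ∃ e : H, ‖e‖ = 1 ∧ adjoint V e = 0 :=
    ⟨((‖x0 - V (adjoint V x0)‖ : ℂ)⁻¹) • (x0 - V (adjoint V x0)), norm_smul_inv_norm he0,
      by rw [map_smul, hVe0, smul_zero]⟩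
  have hM0 : 0 ≤ M := (norm_nonneg _).trans (hM e he)
  exact h41_main_of_curve hV hγ p hM0 (h41_curve hV he hVe γ p hM)

omit [CompleteSpace H] in
/-- Crouzeix-type bounds pass to affine images `a + b A`. -/
theorem h41_affine (A : H →L[ℂ] H) (K : ℝ)
    (hA : ∀ (q : ℂ[X]) (M : ℝ), (∀ x : H, ‖x‖ = 1 → ‖q.eval (inner ℂ x (A x))‖ ≤ M) →
      ‖aeval A q‖ ≤ K * M)
    (a b : ℂ) (p : ℂ[X]) (M : ℝ)
    (hM : ∀ x : H, ‖x‖ = 1 →
      ‖p.eval (inner ℂ x ((a • (1 : H →L[ℂ] H) + b • A) x))‖ ≤ M) :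
    ‖aeval (a • (1 : H →L[ℂ] H) + b • A) p‖ ≤ K * M := by
  have h1 : aeval A (p.comp (C a + C b * X)) = aeval (a • (1 : H →L[ℂ] H) + b • A) p := by
    rw [aeval_comp]
    congr 1
    simp [Algebra.smul_def]
  rw [← h1]
  apply hA
  intro x hx
  have h0 : inner ℂ x ((1 : H →L[ℂ] H) x) = 1 := by
    show inner ℂ x x = 1
    rw [inner_self_eq_norm_sq_to_K, hx]; simp
  have h2 : inner ℂ x ((a • (1 : H →L[ℂ] H) + b • A) x) = a + b * inner ℂ x (A x) := by
    rw [add_apply, smul_apply, smul_apply, inner_add_right, inner_smul_right, inner_smul_right,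
      h0, mul_one]
  have h3 := hM x hx
  rw [h2] at h3
  simpa [eval_comp] using h3

theorem h41_star_aeval (A : H →L[ℂ] H) (p : ℂ[X]) :
    star (aeval A p) = aeval (star A) (p.map (starRingEnd ℂ)) := by
  induction p using Polynomial.induction_on' with
  | add p q hp hq => rw [map_add, star_add, hp, hq, Polynomial.map_add, map_add]
  | monomial n c =>
    rw [aeval_monomial, Polynomial.map_monomial, aeval_monomial, ← Algebra.smul_def,
      ← Algebra.smul_def, star_smul, star_pow]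
    rfl

/-- Crouzeix-type bounds pass to adjoints. -/
theorem h41_adjoint (A : H →L[ℂ] H) (K : ℝ)
    (hA : ∀ (q : ℂ[X]) (M : ℝ), (∀ x : H, ‖x‖ = 1 → ‖q.eval (inner ℂ x (star A x))‖ ≤ M) →
      ‖aeval (star A) q‖ ≤ K * M)
    (p : ℂ[X]) (M : ℝ) (hM : ∀ x : H, ‖x‖ = 1 → ‖p.eval (inner ℂ x (A x))‖ ≤ M) :
    ‖aeval A p‖ ≤ K * M := by
  rw [← norm_star (aeval A p), h41_star_aeval]
  apply hA
  intro x hx
  have h1 : inner ℂ x (star A x) = starRingEnd ℂ (inner ℂ x (A x)) := by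
    rw [star_eq_adjoint, adjoint_inner_right, inner_conj_symm]
  rw [h1, eval_map_apply, Complex.norm_conj]
  exact hM x hx

/-- The case `‖c‖ < ‖b‖` of operators `a + b V† + c V`. -/
theorem h41_dominant {V : H →L[ℂ] H} (hV : adjoint V * V = 1) (hV' : V * adjoint V ≠ 1)
    (a b c : ℂ) (hbc : ‖c‖ < ‖b‖) (p : ℂ[X]) (M : ℝ)
    (hM : ∀ x : H, ‖x‖ = 1 →
      ‖p.eval (inner ℂ x ((a • (1 : H →L[ℂ] H) + b • adjoint V + c • V) x))‖ ≤ M) :
    ‖aeval (a • (1 : H →L[ℂ] H) + b • adjoint V + c • V) p‖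
      ≤ Real.sqrt (1 + (‖c‖ / ‖b‖) ^ 2) * M := by
  have hb : b ≠ 0 := by
    intro h
    rw [h, norm_zero] at hbc
    exact absurd hbc (not_lt.mpr (norm_nonneg c))
  have hbn : 0 < ‖b‖ := norm_pos_iff.mpr hb
  have hγ : ‖c / b‖ < 1 := by
    rw [norm_div, div_lt_one hbn]; exact hbc
  have hop : a • (1 : H →L[ℂ] H) + b • adjoint V + c • V
      = a • (1 : H →L[ℂ] H) + b • (adjoint V + (c / b) • V) := by
    rw [smul_add, smul_smul, mul_div_cancel₀ c hb, add_assoc]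
  rw [hop] at hM ⊢
  have h := h41_affine (adjoint V + (c / b) • V) (Real.sqrt (1 + ‖c / b‖ ^ 2))
    (fun q M' hq => h41_main hV hV' hγ q hq) a b p M hM
  rw [norm_div] at h
  exact h

/-- Crouzeix-type inequality for all operators `a + b V + c V†` with `‖b‖ ≠ ‖c‖`, `V` a
non-unitary isometry. -/
theorem h41_general {V : H →L[ℂ] H} (hV : adjoint V * V = 1) (hV' : V * adjoint V ≠ 1)
    (a b c : ℂ) (hbc : ‖b‖ ≠ ‖c‖) (p : ℂ[X]) (M : ℝ)
    (hM : ∀ x : H, ‖x‖ = 1 →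
      ‖p.eval (inner ℂ x ((a • (1 : H →L[ℂ] H) + b • V + c • adjoint V) x))‖ ≤ M) :
    ‖aeval (a • (1 : H →L[ℂ] H) + b • V + c • adjoint V) p‖
      ≤ Real.sqrt (1 + (min ‖b‖ ‖c‖ / max ‖b‖ ‖c‖) ^ 2) * M := by
  rcases lt_or_gt_of_ne hbc with h | h
  · rw [min_eq_left h.le, max_eq_right h.le]
    have hop : a • (1 : H →L[ℂ] H) + b • V + c • adjoint V
        = a • (1 : H →L[ℂ] H) + c • adjoint V + b • V := by abel
    rw [hop] at hM ⊢
    exact h41_dominant hV hV' a c b h p M hM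
  · rw [min_eq_right h.le, max_eq_left h.le]
    have hst : star (a • (1 : H →L[ℂ] H) + b • V + c • adjoint V)
        = star a • (1 : H →L[ℂ] H) + star b • adjoint V + star c • V := by
      rw [star_add, star_add, star_smul, star_smul, star_smul, star_one, star_eq_adjoint,
        star_eq_adjoint, adjoint_adjoint]
    have h' : ‖star c‖ < ‖star b‖ := by rw [norm_star, norm_star]; exact h
    have key := h41_adjoint (a • (1 : H →L[ℂ] H) + b • V + c • adjoint V)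
      (Real.sqrt (1 + (‖c‖ / ‖b‖) ^ 2))
      (fun q M' hq => by
        rw [hst] at hq ⊢
        have := h41_dominant hV hV' (star a) (star b) (star c) h' q M' hq
        rw [norm_star, norm_star] at this
        exact this) p M hM
    exact key

/-- Final form: the refined constant and the uniform constant `√2`. -/
theorem h41_result {V : H →L[ℂ] H} (hV : adjoint V * V = 1) (hV' : V * adjoint V ≠ 1)
    (a b c : ℂ) (hbc : ‖b‖ ≠ ‖c‖) (p : ℂ[X]) (M : ℝ)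
    (hM : ∀ x : H, ‖x‖ = 1 →
      ‖p.eval (inner ℂ x ((a • (1 : H →L[ℂ] H) + b • V + c • adjoint V) x))‖ ≤ M) :
    ‖aeval (a • (1 : H →L[ℂ] H) + b • V + c • adjoint V) p‖
        ≤ Real.sqrt (1 + (min ‖b‖ ‖c‖ / max ‖b‖ ‖c‖) ^ 2) * M ∧
      ‖aeval (a • (1 : H →L[ℂ] H) + b • V + c • adjoint V) p‖ ≤ Real.sqrt 2 * M := by
  have h1 := h41_general hV hV' a b c hbc p M hM
  refine ⟨h1, h1.trans ?_⟩
  have hex : ∃ x : H, x ≠ 0 := by
    by_contra h
    simp only [not_exists, not_not] at h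
    exact hV' (ContinuousLinearMap.ext fun x => by rw [h x, map_zero, map_zero])
  obtain ⟨x0, hx0⟩ := hex
  have hM0 : 0 ≤ M := (norm_nonneg _).trans (hM (((‖x0‖ : ℂ)⁻¹) • x0) (norm_smul_inv_norm hx0))
  have hr1 : min ‖b‖ ‖c‖ / max ‖b‖ ‖c‖ ≤ 1 :=
    div_le_one_of_le₀ min_le_max (le_max_of_le_left (norm_nonneg b))
  have hr0 : 0 ≤ min ‖b‖ ‖c‖ / max ‖b‖ ‖c‖ :=
    div_nonneg (le_min (norm_nonneg b) (norm_nonneg c)) (le_max_of_le_left (norm_nonneg b))
  have h2 : Real.sqrt (1 + (min ‖b‖ ‖c‖ / max ‖b‖ ‖c‖) ^ 2) ≤ Real.sqrt 2 :=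
    Real.sqrt_le_sqrt (by nlinarith)
  exact mul_le_mul_of_nonneg_right h2 hM0

end Vale.Agent.Lib.P123.H41
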