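import Vale.Agent.Lib.P123.helper41.Ellipse

namespace Vale.Agent.Lib.P123.H41

open ContinuousLinearMap Polynomial

variable {H : Type*} [NormedAddCommGroup H] [InnerProductSpace ℂ H] [CompleteSpace H]

/-- Curve form of the bound, case `‖c‖ < ‖b‖` of operators `a + b V† + c V`. -/
theorem h41_dominant_curve {V : H →L[ℂ] H} (hV : adjoint V * V = 1)
    (a b c : ℂ) (hbc : ‖c‖ < ‖b‖) (p : ℂ[X]) (M : ℝ)
    (hM : ∀ z : ℂ, ‖z‖ = 1 → ‖p.eval (a + b * star z + c * z)‖ ≤ M) :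
    ‖aeval (a • (1 : H →L[ℂ] H) + b • adjoint V + c • V) p‖
      ≤ Real.sqrt (1 + (‖c‖ / ‖b‖) ^ 2) * M := by
  have hb : b ≠ 0 := by
    intro h
    rw [h, norm_zero] at hbc
    exact absurd hbc (not_lt.mpr (norm_nonneg c))
  have hbn : 0 < ‖b‖ := norm_pos_iff.mpr hb
  have hγ : ‖c / b‖ < 1 := by
    rw [norm_div, div_lt_one hbn]; exact hbc
  have hM0 : 0 ≤ M := (norm_nonneg _).trans (hM 1 norm_one)
  have hop : a • (1 : H →L[ℂ] H) + b • adjoint V + c • V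
      = a • (1 : H →L[ℂ] H) + b • (adjoint V + (c / b) • V) := by
    rw [smul_add, smul_smul, mul_div_cancel₀ c hb, add_assoc]
  have h1 : aeval (adjoint V + (c / b) • V) (p.comp (C a + C b * X))
      = aeval (a • (1 : H →L[ℂ] H) + b • (adjoint V + (c / b) • V)) p := by
    rw [aeval_comp]
    congr 1
    simp [Algebra.smul_def]
  rw [hop, ← h1, ← norm_div]
  apply h41_main_of_curve hV hγ _ hM0
  intro z hz
  have h2 := hM z hz
  have h3 : a + b * (star z + c / b * z) = a + b * star z + c * z := by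
    field_simp
    ring
  rw [eval_comp]
  simp only [eval_add, eval_mul, eval_C, eval_X]
  rw [h3]
  exact h2

/-- Curve form of the bound for all operators `a + b V + c V†` with `‖b‖ ≠ ‖c‖`. -/
theorem h41_general_curve {V : H →L[ℂ] H} (hV : adjoint V * V = 1)
    (a b c : ℂ) (hbc : ‖b‖ ≠ ‖c‖) (p : ℂ[X]) (M : ℝ)
    (hM : ∀ z : ℂ, ‖z‖ = 1 → ‖p.eval (a + b * z + c * star z)‖ ≤ M) :
    ‖aeval (a • (1 : H →L[ℂ] H) + b • V + c • adjoint V) p‖
      ≤ Real.sqrt (1 + (min ‖b‖ ‖c‖ / max ‖b‖ ‖c‖) ^ 2) * M := by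
  rcases lt_or_gt_of_ne hbc with h | h
  · rw [min_eq_left h.le, max_eq_right h.le]
    have hop : a • (1 : H →L[ℂ] H) + b • V + c • adjoint V
        = a • (1 : H →L[ℂ] H) + c • adjoint V + b • V := by abel
    rw [hop]
    refine h41_dominant_curve hV a c b h p M fun z hz => ?_
    have h2 := hM z hz
    have h3 : a + c * star z + b * z = a + b * z + c * star z := by ring
    rw [h3]
    exact h2
  · rw [min_eq_right h.le, max_eq_left h.le]
    have hst : star (a • (1 : H →L[ℂ] H) + b • V + c • adjoint V)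
        = star a • (1 : H →L[ℂ] H) + star b • adjoint V + star c • V := by
      rw [star_add, star_add, star_smul, star_smul, star_smul, star_one, star_eq_adjoint,
        star_eq_adjoint, adjoint_adjoint]
    have h' : ‖star c‖ < ‖star b‖ := by rw [norm_star, norm_star]; exact h
    rw [← norm_star (aeval (a • (1 : H →L[ℂ] H) + b • V + c • adjoint V) p), h41_star_aeval, hst]
    have key := h41_dominant_curve hV (star a) (star b) (star c) h' (p.map (starRingEnd ℂ)) M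
      (fun z hz => by
        have h2 := hM z hz
        have h3 : star a + star b * star z + star c * z
            = starRingEnd ℂ (a + b * z + c * star z) := by
          simp
        rw [h3, eval_map_apply, Complex.norm_conj]
        exact h2)
    rw [norm_star, norm_star] at key
    exact key

theorem h41_norm_pow_apply {V : H →L[ℂ] H} (hV : adjoint V * V = 1) {e : H} (he : ‖e‖ = 1)
    (k : ℕ) : ‖(V ^ k) e‖ = 1 := by
  induction k with
  | zero =>
    have h0 : (V ^ 0) e = e := by rw [pow_zero]; rfl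
    rw [h0, he]
  | succ k ih => rw [h41_pow_succ_apply, h41_iso_norm hV, ih]

theorem h41_adj_pow_succ {V : H →L[ℂ] H} (hV : adjoint V * V = 1) (k : ℕ) (e : H) :
    adjoint V ((V ^ (k + 1)) e) = (V ^ k) e := by
  rw [h41_pow_succ_apply]
  exact DFunLike.congr_fun hV ((V ^ k) e)

omit [CompleteSpace H] in
theorem h41_tele_V (V : H →L[ℂ] H) (e : H) (z ζ : ℂ) (hzζ : z * ζ = 1) (n : ℕ) :
    V (∑ k ∈ Finset.range (n + 1), ζ ^ k • (V ^ k) e)
        - z • (∑ k ∈ Finset.range (n + 1), ζ ^ k • (V ^ k) e)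
      = ζ ^ n • (V ^ (n + 1)) e - z • e := by
  induction n with
  | zero =>
    have h0 : (V ^ 0) e = e := by rw [pow_zero]; rfl
    have h1 : (V ^ (0 + 1)) e = V e := by rw [h41_pow_succ_apply, h0]
    rw [Finset.sum_range_one, h0, h1, pow_zero, one_smul, one_smul]
  | succ n ih =>
    obtain ⟨S, hS⟩ : ∃ S : H, S = ∑ k ∈ Finset.range (n + 1), ζ ^ k • (V ^ k) e := ⟨_, rfl⟩
    rw [← hS] at ih
    rw [Finset.sum_range_succ, ← hS, map_add, smul_add, map_smul, ← h41_pow_succ_apply]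
    have h2 : z • ζ ^ (n + 1) • (V ^ (n + 1)) e = ζ ^ n • (V ^ (n + 1)) e := by
      rw [smul_smul, pow_succ, mul_comm z, mul_assoc, mul_comm ζ z, hzζ, mul_one]
    rw [h2]
    have h3 : V S + ζ ^ (n + 1) • (V ^ (n + 1 + 1)) e - (z • S + ζ ^ n • (V ^ (n + 1)) e)
        = (V S - z • S) + ζ ^ (n + 1) • (V ^ (n + 1 + 1)) e - ζ ^ n • (V ^ (n + 1)) e := by
      abel
    rw [h3, ih]
    abel

theorem h41_tele_adj {V : H →L[ℂ] H} (hV : adjoint V * V = 1) {e : H}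
    (hVe : adjoint V e = 0) (ζ : ℂ) (n : ℕ) :
    adjoint V (∑ k ∈ Finset.range (n + 1), ζ ^ k • (V ^ k) e)
        - ζ • (∑ k ∈ Finset.range (n + 1), ζ ^ k • (V ^ k) e)
      = -(ζ ^ (n + 1) • (V ^ n) e) := by
  induction n with
  | zero =>
    have h0 : (V ^ 0) e = e := by rw [pow_zero]; rfl
    rw [Finset.sum_range_one, pow_zero, one_smul, h0, hVe, zero_sub, pow_one]
  | succ n ih =>
    obtain ⟨S, hS⟩ : ∃ S : H, S = ∑ k ∈ Finset.range (n + 1), ζ ^ k • (V ^ k) e := ⟨_, rfl⟩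
    rw [← hS] at ih
    rw [Finset.sum_range_succ, ← hS, map_add, smul_add, map_smul, h41_adj_pow_succ hV]
    have h2 : ζ • ζ ^ (n + 1) • (V ^ (n + 1)) e = ζ ^ (n + 1 + 1) • (V ^ (n + 1)) e := by
      rw [smul_smul, ← pow_succ']
    rw [h2]
    have h3 : adjoint V S + ζ ^ (n + 1) • (V ^ n) e
          - (ζ • S + ζ ^ (n + 1 + 1) • (V ^ (n + 1)) e)
        = (adjoint V S - ζ • S) + ζ ^ (n + 1) • (V ^ n) e
          - ζ ^ (n + 1 + 1) • (V ^ (n + 1)) e := by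
      abel
    rw [h3, ih]
    abel

theorem h41_norm_sq_sum {V : H →L[ℂ] H} (hV : adjoint V * V = 1) {e : H} (he : ‖e‖ = 1)
    (hVe : adjoint V e = 0) (ζ : ℂ) (hζ : ‖ζ‖ = 1) (n : ℕ) :
    ‖∑ k ∈ Finset.range (n + 1), ζ ^ k • (V ^ k) e‖ ^ 2 = (n : ℝ) + 1 := by
  have hzz : ∀ k : ℕ, ζ ^ k * star (ζ ^ k) = 1 := by
    intro k
    have h1 : ζ * star ζ = 1 := by
      rw [Complex.star_def, Complex.mul_conj, Complex.normSq_eq_norm_sq, hζ]; simp
    rw [star_pow, ← mul_pow, h1, one_pow]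
  obtain ⟨y, hy⟩ : ∃ y : H, y = ∑ k ∈ Finset.range (n + 1), ζ ^ k • (V ^ k) e := ⟨_, rfl⟩
  have hyf : ∀ m : ℕ, inner ℂ y ((V ^ m) e) = if m ≤ n then star (ζ ^ m) else 0 := by
    intro m
    rw [hy, sum_inner]
    simp only [inner_smul_left, h41_orth hV he hVe, mul_ite, mul_one, mul_zero]
    rw [Finset.sum_ite_eq' (Finset.range (n + 1)) m]
    simp [Finset.mem_range]
  have hyy : inner ℂ y y = (n : ℂ) + 1 := by
    have h : inner ℂ y y = inner ℂ y (∑ k ∈ Finset.range (n + 1), ζ ^ k • (V ^ k) e) := by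
      rw [← hy]
    rw [h, inner_sum]
    simp only [inner_smul_right, hyf]
    rw [Finset.sum_congr rfl (fun k hk => by
      rw [if_pos (Nat.lt_succ_iff.mp (Finset.mem_range.mp hk)), hzz k])]
    simp
  rw [← hy, ← @inner_self_eq_norm_sq ℂ, hyy]
  simp

/-- Approximate eigenvectors of `V` and `V†` for every point of the unit circle. -/
theorem h41_approx {V : H →L[ℂ] H} (hV : adjoint V * V = 1) {e : H} (he : ‖e‖ = 1)
    (hVe : adjoint V e = 0) (z : ℂ) (hz : ‖z‖ = 1) (n : ℕ) :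
    ∃ x : H, ‖x‖ = 1 ∧ ‖V x - z • x‖ ≤ 2 * Real.sqrt (1 / ((n : ℝ) + 1)) ∧
      ‖adjoint V x - star z • x‖ ≤ Real.sqrt (1 / ((n : ℝ) + 1)) := by
  have hζ : ‖star z‖ = 1 := by rw [norm_star, hz]
  have hzζ : z * star z = 1 := by
    rw [Complex.star_def, Complex.mul_conj, Complex.normSq_eq_norm_sq, hz]; simp
  have hny := h41_norm_sq_sum hV he hVe (star z) hζ n
  have hV1 := h41_tele_V V e z (star z) hzζ n
  have hV2 := h41_tele_adj hV hVe (star z) n
  obtain ⟨y, hy⟩ : ∃ y : H, y = ∑ k ∈ Finset.range (n + 1), star z ^ k • (V ^ k) e := ⟨_, rfl⟩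
  rw [← hy] at hny hV1 hV2
  have hpos : (0 : ℝ) < (n : ℝ) + 1 := by positivity
  have hyn : ‖y‖ = Real.sqrt ((n : ℝ) + 1) := by
    rw [← hny, Real.sqrt_sq (norm_nonneg y)]
  have hy0 : ‖y‖ ≠ 0 := by
    rw [hyn]
    exact (Real.sqrt_pos.mpr hpos).ne'
  have hinv : ‖y‖⁻¹ = Real.sqrt (1 / ((n : ℝ) + 1)) := by
    rw [hyn, one_div, Real.sqrt_inv]
  have hn1 : ‖V y - z • y‖ ≤ 2 := by
    rw [hV1]
    calc ‖star z ^ n • (V ^ (n + 1)) e - z • e‖
        ≤ ‖star z ^ n • (V ^ (n + 1)) e‖ + ‖z • e‖ := norm_sub_le _ _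
      _ = 1 + 1 := by
          rw [norm_smul, norm_smul, norm_pow, hζ, one_pow, h41_norm_pow_apply hV he, hz, he,
            mul_one]
      _ = 2 := by norm_num
  have hn2 : ‖adjoint V y - star z • y‖ ≤ 1 := by
    rw [hV2, norm_neg, norm_smul, norm_pow, hζ, one_pow, h41_norm_pow_apply hV he, mul_one]
  refine ⟨((‖y‖⁻¹ : ℝ) : ℂ) • y, ?_, ?_, ?_⟩
  · rw [norm_smul, Complex.norm_real, norm_inv, norm_norm, inv_mul_cancel₀ hy0]
  · have h1 : V (((‖y‖⁻¹ : ℝ) : ℂ) • y) - z • ((‖y‖⁻¹ : ℝ) : ℂ) • y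
        = ((‖y‖⁻¹ : ℝ) : ℂ) • (V y - z • y) := by
      rw [map_smul, smul_comm z, smul_sub]
    rw [h1, norm_smul, Complex.norm_real, norm_inv, norm_norm, hinv, mul_comm]
    exact mul_le_mul_of_nonneg_right hn1 (Real.sqrt_nonneg _)
  · have h1 : adjoint V (((‖y‖⁻¹ : ℝ) : ℂ) • y) - star z • ((‖y‖⁻¹ : ℝ) : ℂ) • y
        = ((‖y‖⁻¹ : ℝ) : ℂ) • (adjoint V y - star z • y) := by
      rw [map_smul, smul_comm (star z), smul_sub]
    rw [h1, norm_smul, Complex.norm_real, norm_inv, norm_norm, hinv]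
    calc Real.sqrt (1 / ((n : ℝ) + 1)) * ‖adjoint V y - star z • y‖
        ≤ Real.sqrt (1 / ((n : ℝ) + 1)) * 1 :=
          mul_le_mul_of_nonneg_left hn2 (Real.sqrt_nonneg _)
      _ = Real.sqrt (1 / ((n : ℝ) + 1)) := mul_one _

/-- Every point `a + b z + c conj z`, `‖z‖ = 1`, is an approximate eigenvalue of
`a + b V + c V†` when `V` is a non-unitary isometry. -/
theorem h41_approx_A {V : H →L[ℂ] H} (hV : adjoint V * V = 1) (hV' : V * adjoint V ≠ 1)
    (a b c z : ℂ) (hz : ‖z‖ = 1) (n : ℕ) :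
    ∃ x : H, ‖x‖ = 1 ∧
      ‖(a • (1 : H →L[ℂ] H) + b • V + c • adjoint V) x - (a + b * z + c * star z) • x‖
        ≤ (2 * ‖b‖ + ‖c‖) * Real.sqrt (1 / ((n : ℝ) + 1)) := by
  have hex : ∃ x : H, V (adjoint V x) ≠ x := by
    by_contra h
    simp only [not_exists, not_not] at h
    exact hV' (ContinuousLinearMap.ext fun x => h x)
  obtain ⟨x0, hx0⟩ := hex
  have he0 : x0 - V (adjoint V x0) ≠ 0 := sub_ne_zero.mpr (Ne.symm hx0)
  have hVe0 : adjoint V (x0 - V (adjoint V x0)) = 0 := by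
    have h : adjoint V (V (adjoint V x0)) = adjoint V x0 := DFunLike.congr_fun hV (adjoint V x0)
    rw [map_sub, h, sub_self]
  obtain ⟨e, he, hVe⟩ : ∃ e : H, ‖e‖ = 1 ∧ adjoint V e = 0 :=
    ⟨((‖x0 - V (adjoint V x0)‖ : ℂ)⁻¹) • (x0 - V (adjoint V x0)), norm_smul_inv_norm he0,
      by rw [map_smul, hVe0, smul_zero]⟩
  obtain ⟨x, hx1, hx2, hx3⟩ := h41_approx hV he hVe z hz n
  refine ⟨x, hx1, ?_⟩
  have h1 : (a • (1 : H →L[ℂ] H) + b • V + c • adjoint V) x - (a + b * z + c * star z) • x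
      = b • (V x - z • x) + c • (adjoint V x - star z • x) := by
    have h0 : (1 : H →L[ℂ] H) x = x := rfl
    rw [add_apply, add_apply, smul_apply, smul_apply, smul_apply, h0, add_smul, add_smul,
      mul_smul, mul_smul, smul_sub, smul_sub]
    abel
  rw [h1]
  calc ‖b • (V x - z • x) + c • (adjoint V x - star z • x)‖
      ≤ ‖b • (V x - z • x)‖ + ‖c • (adjoint V x - star z • x)‖ := norm_add_le _ _
    _ = ‖b‖ * ‖V x - z • x‖ + ‖c‖ * ‖adjoint V x - star z • x‖ := by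
        rw [norm_smul, norm_smul]
    _ ≤ ‖b‖ * (2 * Real.sqrt (1 / ((n : ℝ) + 1))) + ‖c‖ * Real.sqrt (1 / ((n : ℝ) + 1)) := by
        gcongr
    _ = (2 * ‖b‖ + ‖c‖) * Real.sqrt (1 / ((n : ℝ) + 1)) := by ring

omit [CompleteSpace H] in
/-- At an approximate eigenvector for `lam`, the quadratic form of `q(A)` is close to
`q(lam)`. -/
theorem h41_poly_approx (A : H →L[ℂ] H) (q : ℂ[X]) (lam : ℂ) (x : H) (hx : ‖x‖ = 1) :
    ‖inner ℂ x ((aeval A q) x) - q.eval lam‖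
      ≤ ‖aeval A (q /ₘ (X - C lam))‖ * ‖A x - lam • x‖ := by
  have hq : q = C (q.eval lam) + (q /ₘ (X - C lam)) * (X - C lam) := by
    have h := modByMonic_add_div q (X - C lam)
    rw [modByMonic_X_sub_C_eq_C_eval] at h
    rw [mul_comm]
    exact h.symm
  have hA : aeval A q = (q.eval lam) • (1 : H →L[ℂ] H)
      + aeval A (q /ₘ (X - C lam)) * (A - lam • (1 : H →L[ℂ] H)) := by
    conv_lhs => rw [hq]
    rw [map_add, map_mul, map_sub, aeval_C, aeval_X, aeval_C, Algebra.algebraMap_eq_smul_one,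
      Algebra.algebraMap_eq_smul_one]
  have hx1 : inner ℂ x x = (1 : ℂ) := by
    rw [inner_self_eq_norm_sq_to_K, hx]; simp
  have h2 : inner ℂ x ((aeval A q) x) - q.eval lam
      = inner ℂ x ((aeval A (q /ₘ (X - C lam))) (A x - lam • x)) := by
    have h0 : (1 : H →L[ℂ] H) x = x := rfl
    have h3 : (aeval A (q /ₘ (X - C lam)) * (A - lam • (1 : H →L[ℂ] H))) x
        = (aeval A (q /ₘ (X - C lam))) (A x - lam • x) := rfl
    rw [hA, add_apply, smul_apply, h0, inner_add_right, inner_smul_right, hx1, mul_one,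
      add_sub_cancel_left, h3]
  rw [h2]
  calc ‖inner ℂ x ((aeval A (q /ₘ (X - C lam))) (A x - lam • x))‖
      ≤ ‖x‖ * ‖(aeval A (q /ₘ (X - C lam))) (A x - lam • x)‖ := norm_inner_le_norm _ _
    _ ≤ 1 * (‖aeval A (q /ₘ (X - C lam))‖ * ‖A x - lam • x‖) := by
        rw [hx]
        exact mul_le_mul_of_nonneg_left (ContinuousLinearMap.le_opNorm _ _) zero_le_one
    _ = ‖aeval A (q /ₘ (X - C lam))‖ * ‖A x - lam • x‖ := one_mul _

/-- Crouzeix-type inequality for every polynomial image `q(A)` of `A = a + b V + c V†`. -/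
theorem h41_poly_result {V : H →L[ℂ] H} (hV : adjoint V * V = 1) (hV' : V * adjoint V ≠ 1)
    (a b c : ℂ) (hbc : ‖b‖ ≠ ‖c‖) (q p : ℂ[X]) (M : ℝ)
    (hM : ∀ x : H, ‖x‖ = 1 →
      ‖p.eval (inner ℂ x ((aeval (a • (1 : H →L[ℂ] H) + b • V + c • adjoint V) q) x))‖ ≤ M) :
    ‖aeval (aeval (a • (1 : H →L[ℂ] H) + b • V + c • adjoint V) q) p‖
        ≤ Real.sqrt (1 + (min ‖b‖ ‖c‖ / max ‖b‖ ‖c‖) ^ 2) * M ∧
      ‖aeval (aeval (a • (1 : H →L[ℂ] H) + b • V + c • adjoint V) q) p‖ ≤ Real.sqrt 2 * M := by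
  obtain ⟨A, hA⟩ : ∃ A : H →L[ℂ] H, A = a • (1 : H →L[ℂ] H) + b • V + c • adjoint V :=
    ⟨_, rfl⟩
  rw [← hA] at hM ⊢
  have hcurve : ∀ z : ℂ, ‖z‖ = 1 → ‖(p.comp q).eval (a + b * z + c * star z)‖ ≤ M := by
    intro z hz
    rw [eval_comp]
    obtain ⟨lam, hlam⟩ : ∃ lam : ℂ, lam = a + b * z + c * star z := ⟨_, rfl⟩
    rw [← hlam]
    obtain ⟨K, hK⟩ : ∃ K : ℝ, K = ‖aeval A (q /ₘ (X - C lam))‖ * (2 * ‖b‖ + ‖c‖) := ⟨_, rfl⟩
    have hex : ∀ n : ℕ, ∃ u : ℂ, ‖p.eval u‖ ≤ M ∧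
        ‖u - q.eval lam‖ ≤ K * Real.sqrt (1 / ((n : ℝ) + 1)) := by
      intro n
      obtain ⟨x, hx1, hx2⟩ := h41_approx_A hV hV' a b c z hz n
      rw [← hA, ← hlam] at hx2
      refine ⟨inner ℂ x ((aeval A q) x), hM x hx1, ?_⟩
      calc ‖inner ℂ x ((aeval A q) x) - q.eval lam‖
          ≤ ‖aeval A (q /ₘ (X - C lam))‖ * ‖A x - lam • x‖ := h41_poly_approx A q lam x hx1
        _ ≤ ‖aeval A (q /ₘ (X - C lam))‖
              * ((2 * ‖b‖ + ‖c‖) * Real.sqrt (1 / ((n : ℝ) + 1))) :=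
            mul_le_mul_of_nonneg_left hx2 (norm_nonneg _)
        _ = K * Real.sqrt (1 / ((n : ℝ) + 1)) := by rw [hK]; ring
    choose u hu1 hu2 using hex
    have hlim0 : Filter.Tendsto (fun n : ℕ => K * Real.sqrt (1 / ((n : ℝ) + 1))) Filter.atTop
        (nhds 0) := by
      have h1 : Filter.Tendsto (fun n : ℕ => 1 / ((n : ℝ) + 1)) Filter.atTop (nhds 0) :=
        tendsto_one_div_add_atTop_nhds_zero_nat
      have h2 : Filter.Tendsto (fun n : ℕ => Real.sqrt (1 / ((n : ℝ) + 1))) Filter.atTop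
          (nhds (Real.sqrt 0)) := (Real.continuous_sqrt.tendsto 0).comp h1
      rw [Real.sqrt_zero] at h2
      have h3 := h2.const_mul K
      rw [mul_zero] at h3
      exact h3
    have hu : Filter.Tendsto u Filter.atTop (nhds (q.eval lam)) := by
      rw [tendsto_iff_norm_sub_tendsto_zero]
      exact squeeze_zero (fun n => norm_nonneg _) hu2 hlim0
    have hp : Filter.Tendsto (fun n : ℕ => ‖p.eval (u n)‖) Filter.atTop
        (nhds ‖p.eval (q.eval lam)‖) :=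
      ((p.continuous.tendsto (q.eval lam)).comp hu).norm
    exact le_of_tendsto' hp hu1
  have h1 := h41_general_curve hV a b c hbc (p.comp q) M hcurve
  rw [aeval_comp, ← hA] at h1
  refine ⟨h1, h1.trans ?_⟩
  have hM0 : 0 ≤ M := (norm_nonneg _).trans (hcurve 1 norm_one)
  have hr1 : min ‖b‖ ‖c‖ / max ‖b‖ ‖c‖ ≤ 1 :=
    div_le_one_of_le₀ min_le_max (le_max_of_le_left (norm_nonneg b))
  have hr0 : 0 ≤ min ‖b‖ ‖c‖ / max ‖b‖ ‖c‖ :=
    div_nonneg (le_min (norm_nonneg b) (norm_nonneg c)) (le_max_of_le_left (norm_nonneg b))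
  have h2 : Real.sqrt (1 + (min ‖b‖ ‖c‖ / max ‖b‖ ‖c‖) ^ 2) ≤ Real.sqrt 2 :=
    Real.sqrt_le_sqrt (by nlinarith)
  exact mul_le_mul_of_nonneg_right h2 hM0

end Vale.Agent.Lib.P123.H41
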